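import Vale.Agent.P017.R2.H985.Defs

/-!
# P017, row M2c: sums of Jacobi symbols over intervals (StmtPS1, StmtPS2)
-/

open Finset

namespace Vale.Agent.P017.R2.H285

open Vale.Agent.P017.R2.H985 Vale.Agent.P017.H185

theorem sum_block {F : ℕ → ℤ} {q : ℕ} (hq : 0 < q) (hper : ∀ n, F (n + q) = F n)
    (h0 : ∑ n ∈ range q, F n = 0) : ∀ N : ℕ, ∑ n ∈ Ico N (N + q), F n = 0 := by
  intro N
  induction N with
  | zero => rw [zero_add, ← Finset.range_eq_Ico]; exact h0
  | succ N ih =>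
    have h1 : ∑ n ∈ Ico (N + 1) (N + 1 + q), F n = ∑ n ∈ Ico (N + 1) (N + q), F n + F (N + q) := by
      rw [show N + 1 + q = (N + q) + 1 by ring, Finset.sum_Ico_succ_top (by omega)]
    have h2 : ∑ n ∈ Ico N (N + q), F n = F N + ∑ n ∈ Ico (N + 1) (N + q), F n :=
      Finset.sum_eq_sum_Ico_succ_bot (by omega) F
    rw [h1, hper]
    linarith

theorem abs_sum_le {F : ℕ → ℤ} (hF : ∀ n, |F n| ≤ 1) (a b : ℕ) :
    |∑ n ∈ Ico a b, F n| ≤ ((b - a : ℕ) : ℤ) := by
  calc |∑ n ∈ Ico a b, F n| ≤ ∑ n ∈ Ico a b, |F n| := Finset.abs_sum_le_sum_abs _ _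
    _ ≤ ∑ n ∈ Ico a b, (1 : ℤ) := Finset.sum_le_sum fun n _ => hF n
    _ = ((b - a : ℕ) : ℤ) := by simp

theorem per_bound' {F : ℕ → ℤ} {q : ℕ} (hq : 0 < q) (hF : ∀ n, |F n| ≤ 1)
    (hper : ∀ n, F (n + q) = F n) (h0 : ∑ n ∈ range q, F n = 0) :
    ∀ k a b : ℕ, b - a ≤ k → |∑ n ∈ Ico a b, F n| ≤ q := by
  intro k
  induction k using Nat.strong_induction_on with
  | _ k ih =>
    intro a b hab
    by_cases h : b - a ≤ q
    · exact (abs_sum_le hF a b).trans (by exact_mod_cast h)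
    · have h1 : ∑ n ∈ Ico a b, F n = ∑ n ∈ Ico a (a + q), F n + ∑ n ∈ Ico (a + q) b, F n :=
        (Finset.sum_Ico_consecutive F (by omega) (by omega)).symm
      rw [h1, sum_block hq hper h0, zero_add]
      exact ih (b - (a + q)) (by omega) (a + q) b le_rfl

/-- sum over a period -/
theorem sum_period {F : ℕ → ℤ} {q u : ℕ} (hq : 0 < q) (hper : ∀ n, F (n + q) = F n)
    (hu : u.Coprime q) (hneg : ∀ n, F (u * n) = - F n) : ∑ n ∈ range q, F n = 0 := by
  have : NeZero q := ⟨hq.ne'⟩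
  have hmod : ∀ n, F (n % q) = F n := fun n => Function.Periodic.map_mod_nat hper n
  have h1 : ∑ n ∈ range q, F n = ∑ a : ZMod q, F a.val := by
    refine Finset.sum_nbij' (fun n => (n : ZMod q)) (fun a => a.val) ?_ ?_ ?_ ?_ ?_
    · intro n _; exact mem_univ _
    · intro a _; exact mem_range.mpr (ZMod.val_lt a)
    · intro n hn; exact ZMod.val_cast_of_lt (mem_range.mp hn)
    · intro a _; exact ZMod.natCast_zmod_val a
    · intro n hn
      show F n = F ((n : ZMod q)).val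
      rw [ZMod.val_cast_of_lt (mem_range.mp hn)]
  have h2 : ∑ a : ZMod q, F a.val = ∑ a : ZMod q, F ((ZMod.unitOfCoprime u hu : ZMod q) * a).val :=
    (Equiv.sum_comp (Units.mulLeft (ZMod.unitOfCoprime u hu)) fun a : ZMod q => F a.val).symm
  have h3 : ∀ a : ZMod q, F ((ZMod.unitOfCoprime u hu : ZMod q) * a).val = - F a.val := by
    intro a
    rw [ZMod.coe_unitOfCoprime, ← hneg, ← hmod (u * a.val)]
    congr 1
    rw [ZMod.val_mul, ZMod.val_natCast, Nat.mod_mul_mod]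
  rw [h1]
  rw [Finset.sum_congr rfl fun a _ => h3 a, Finset.sum_neg_distrib] at h2
  omega

theorem per_bound {F : ℕ → ℤ} {q u : ℕ} (hq : 0 < q) (hF : ∀ n, |F n| ≤ 1)
    (hper : ∀ n, F (n + q) = F n) (hu : u.Coprime q) (hneg : ∀ n, F (u * n) = - F n) (N N' : ℕ) :
    |∑ n ∈ Ioc N N', F n| ≤ q := by
  rw [← Finset.Ico_add_one_add_one_eq_Ioc]
  exact per_bound' hq hF hper (sum_period hq hper hu hneg) _ _ _ le_rfl

theorem jac_abs (a : ℤ) (b : ℕ) : |jacobiSym a b| ≤ 1 := by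
  rcases jacobiSym.trichotomy a b with h | h | h <;> rw [h] <;> simp

/-- squarefree part of an odd nonsquare -/
theorem sqf_part {c : ℕ} (hc : Odd c) (hns : ¬ IsSquare c) :
    ∃ a b : ℕ, b ^ 2 * a = c ∧ Squarefree a ∧ a ≠ 1 ∧ Odd a ∧ b ≤ c ∧ 0 < b := by
  obtain ⟨a, b, ha, hb, hab, hsq⟩ := Nat.sq_mul_squarefree_of_pos hc.pos
  refine ⟨a, b, hab, hsq, ?_, ?_, ?_, hb⟩
  · rintro rfl
    exact hns ⟨b, by rw [← hab]; ring⟩
  · rw [← hab] at hc
    exact (Nat.odd_mul.mp hc).2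
  · rw [← hab]
    nlinarith

theorem sqf_int {a : ℕ} (h : Squarefree a) : Squarefree (a : ℤ) := by
  rw [← Int.squarefree_natAbs]
  simpa using h

theorem cop_of_gt {p x : ℕ} (hp : p.Prime) (hx : 0 < x) (h : x < p) : Nat.Coprime x p :=
  (Nat.coprime_of_lt_prime hx.ne' h hp).symm

/-- an odd prime `u` with `(c/u) = -1`, `u > c` -/
theorem ex_right {c : ℕ} (hc : Odd c) (hns : ¬ IsSquare c) :
    ∃ u : ℕ, u.Prime ∧ Odd u ∧ c < u ∧ jacobiSym (c : ℤ) u = -1 := by
  obtain ⟨a, b, hab, hsq, ha1, hao, hbc, hb0⟩ := sqf_part hc hns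
  obtain ⟨p, hpc, hp, hpo, hJ⟩ := exists_prime_neg (a := (a : ℤ)) (sqf_int hsq)
    (by exact_mod_cast ha1) c
  refine ⟨p, hp, hpo, hpc, ?_⟩
  have hbp : Nat.Coprime b p := cop_of_gt hp hb0 (by omega)
  have h1 : (c : ℤ) = (b : ℤ) ^ 2 * a := by
    rw [← hab]; push_cast; ring
  rw [h1, jacobiSym.mul_left, jacobiSym.sq_one' (a := (b : ℤ)) (b := p)
    (by rw [Int.gcd_natCast_natCast]; exact hbp), hJ, one_mul]

/-- an odd prime `u` with `(u/c) = -1`, `u > c` -/
theorem ex_left {c : ℕ} (hc : Odd c) (hns : ¬ IsSquare c) :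
    ∃ u : ℕ, u.Prime ∧ Odd u ∧ c < u ∧ jacobiSym (u : ℤ) c = -1 := by
  obtain ⟨a, b, hab, hsq, ha1, hao, hbc, hb0⟩ := sqf_part hc hns
  obtain ⟨e, he, hen⟩ : ∃ e : ℤ, e % 4 = 1 ∧ e.natAbs = a := by
    rcases Nat.odd_mod_four_iff.mp (Nat.odd_iff.mp hao) with h | h
    · exact ⟨a, by omega, by simp⟩
    · exact ⟨-a, by omega, by simp⟩
  have he1 : e ≠ 1 := by
    rintro rfl
    exact ha1 hen.symm
  have hes : Squarefree e := by
    rw [← Int.squarefree_natAbs, hen]
    exact hsq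
  obtain ⟨p, hpc, hp, hpo, hJ⟩ := exists_prime_neg hes he1 c
  refine ⟨p, hp, hpo, hpc, ?_⟩
  have hbp : Nat.Coprime b p := cop_of_gt hp hb0 (by omega)
  rw [J_recip he hpo, hen] at hJ
  have ha0 : a ≠ 0 := hsq.ne_zero
  rw [← hab, jacobiSym.mul_right' _ (pow_ne_zero 2 hb0.ne') ha0, jacobiSym.pow_right, hJ,
    jacobiSym.sq_one (by rw [Int.gcd_natCast_natCast]; exact hbp.symm), one_mul]

theorem cop_four {u b : ℕ} (hu : Odd u) (h : Nat.Coprime b u) : Nat.Coprime u (4 * b) := by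
  apply Nat.Coprime.mul_right _ h.symm
  rw [show 4 = 2 ^ 2 by norm_num]
  exact Nat.Coprime.pow_right 2 (Nat.coprime_two_right.mpr hu)

theorem cop_two {u b : ℕ} (hu : Odd u) (h : Nat.Coprime b u) : Nat.Coprime u (2 * b) :=
  Nat.Coprime.mul_right (Nat.coprime_two_right.mpr hu) h.symm

/-- **Row M3c** -/
theorem stmtPS1 : StmtPS1 := by
  intro b hb hns N N'
  obtain ⟨u, hu, huo, hbu, hJ⟩ := ex_right hb hns
  have hcop : Nat.Coprime b u := cop_of_gt hu hb.pos hbu
  have key := per_bound (F := fun n => if Odd n then jacobiSym (b : ℤ) n else 0) (q := 4 * b)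
    (u := u) (by have := hb.pos; omega) ?_ ?_ (cop_four huo hcop) ?_ N N'
  · rw [Finset.sum_filter]
    exact_mod_cast key
  · intro n
    show |if Odd n then jacobiSym (b : ℤ) n else 0| ≤ 1
    split_ifs
    · exact jac_abs _ _
    · simp
  · intro n
    show (if Odd (n + 4 * b) then jacobiSym (b : ℤ) (n + 4 * b) else 0) =
      if Odd n then jacobiSym (b : ℤ) n else 0
    have hev : Even (4 * b) := ⟨2 * b, by ring⟩
    by_cases hn : Odd n
    · have hn' : Odd (n + 4 * b) := hn.add_even hev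
      rw [if_pos hn, if_pos hn', jacobiSym.mod_right' b hn', jacobiSym.mod_right' b hn,
        Nat.add_mod_right]
    · have hn' : ¬ Odd (n + 4 * b) := by
        rw [Nat.not_odd_iff_even] at hn ⊢
        exact hn.add hev
      rw [if_neg hn, if_neg hn']
  · intro n
    show (if Odd (u * n) then jacobiSym (b : ℤ) (u * n) else 0) =
      -(if Odd n then jacobiSym (b : ℤ) n else 0)
    by_cases hn : Odd n
    · rw [if_pos hn, if_pos (huo.mul hn), jacobiSym.mul_right' _ hu.ne_zero hn.pos.ne', hJ]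
      ring
    · rw [if_neg hn, if_neg fun h => hn (Nat.odd_mul.mp h).2, neg_zero]

/-- **Row M3d** -/
theorem stmtPS2 : StmtPS2 := by
  intro c hc hns N N'
  obtain ⟨u, hu, huo, hcu, hJ⟩ := ex_left hc hns
  have hcop : Nat.Coprime c u := cop_of_gt hu hc.pos hcu
  have hper : ∀ n k : ℕ, jacobiSym ((n + k * c : ℕ) : ℤ) c = jacobiSym (n : ℤ) c := by
    intro n k
    apply jacobiSym.mod_left'
    push_cast
    exact Int.add_mul_emod_self_right _ _ _
  constructor
  · refine per_bound (F := fun n => jacobiSym (n : ℤ) c) (q := c) (u := u) hc.pos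
      (fun n => jac_abs _ _) ?_ hcop.symm ?_ N N'
    · intro n
      have := hper n 1
      rw [one_mul] at this
      exact this
    · intro n
      show jacobiSym ((u * n : ℕ) : ℤ) c = - jacobiSym (n : ℤ) c
      rw [Nat.cast_mul, jacobiSym.mul_left, hJ]
      ring
  · have key := per_bound (F := fun n => if Odd n then jacobiSym (n : ℤ) c else 0) (q := 2 * c)
      (u := u) (by have := hc.pos; omega) ?_ ?_ (cop_two huo hcop) ?_ N N'
    · rw [Finset.sum_filter]
      exact_mod_cast key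
    · intro n
      show |if Odd n then jacobiSym (n : ℤ) c else 0| ≤ 1
      split_ifs
      · exact jac_abs _ _
      · simp
    · intro n
      show (if Odd (n + 2 * c) then jacobiSym ((n + 2 * c : ℕ) : ℤ) c else 0) =
        if Odd n then jacobiSym (n : ℤ) c else 0
      have hev : Even (2 * c) := ⟨c, by ring⟩
      by_cases hn : Odd n
      · rw [if_pos hn, if_pos (hn.add_even hev), hper]
      · have hn' : ¬ Odd (n + 2 * c) := by
          rw [Nat.not_odd_iff_even] at hn ⊢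
          exact hn.add hev
        rw [if_neg hn, if_neg hn']
    · intro n
      show (if Odd (u * n) then jacobiSym ((u * n : ℕ) : ℤ) c else 0) =
        -(if Odd n then jacobiSym (n : ℤ) c else 0)
      by_cases hn : Odd n
      · rw [if_pos hn, if_pos (huo.mul hn), Nat.cast_mul, jacobiSym.mul_left, hJ]
        ring
      · rw [if_neg hn, if_neg fun h => hn (Nat.odd_mul.mp h).2, neg_zero]

end Vale.Agent.P017.R2.H285
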