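import Vale.Agent.P017.R2.H985.Defs

/-!
# P017, row M2c: primes with a prescribed pattern (StmtEq)
-/

open Finset

namespace Vale.Agent.P017.R2.H285

open Vale.Agent.P017.R2.H985

theorem jac_prod (a : ℤ) {s : Finset ℕ} (hs : ∀ q ∈ s, q ≠ 0) :
    jacobiSym a (∏ q ∈ s, q) = ∏ q ∈ s, jacobiSym a q := by
  induction s using Finset.induction_on with
  | empty => simp
  | insert q s hq ih =>
    rw [Finset.prod_insert hq, Finset.prod_insert hq,
      jacobiSym.mul_right' a (hs q (mem_insert_self q s))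
        (Finset.prod_ne_zero_iff.mpr fun x hx => hs x (mem_insert_of_mem hx)),
      ih fun x hx => hs x (mem_insert_of_mem hx)]

theorem jac_sqf (a : ℤ) {d : ℕ} (hd : Squarefree d) :
    jacobiSym a d = ∏ q ∈ d.primeFactors, jacobiSym a q := by
  conv_lhs => rw [← Nat.prod_primeFactors_of_squarefree hd]
  exact jac_prod a fun q hq => (Nat.prime_of_mem_primeFactors hq).ne_zero

/-- expansion over the divisors of a squarefree number -/
theorem prod_exp (g : ℕ → ℝ) {m : ℕ} (hm : Squarefree m) :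
    ∏ q ∈ m.primeFactors, (1 + g q) = ∑ d ∈ m.divisors, ∏ q ∈ d.primeFactors, g q := by
  have h := (ArithmeticFunction.IsMultiplicative.prodPrimeFactors g
    ).prodPrimeFactors_one_add_of_squarefree hm
  have h1 : ∀ q ∈ m.primeFactors, (ArithmeticFunction.prodPrimeFactors g) q = g q := by
    intro q hq
    have hp := Nat.prime_of_mem_primeFactors hq
    rw [ArithmeticFunction.prodPrimeFactors_apply hp.ne_zero, hp.primeFactors]
    simp
  have h2 : ∀ d ∈ m.divisors, (ArithmeticFunction.prodPrimeFactors g) d =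
      ∏ q ∈ d.primeFactors, g q := by
    intro d hd
    exact ArithmeticFunction.prodPrimeFactors_apply (Nat.pos_of_mem_divisors hd).ne'
  rw [Finset.prod_congr rfl fun q hq => by rw [← h1 q hq], h, Finset.sum_congr rfl h2]

open Classical in
/-- signs of the pattern -/
noncomputable def sg {m : ℕ} (φ : Pat m) (q : ℕ) : ℝ :=
  if h : q ∈ m.primeFactors then (if φ ⟨q, h⟩ = 0 then 1 else -1) else 1

theorem sg_abs {m : ℕ} (φ : Pat m) (q : ℕ) : |sg φ q| = 1 := by
  unfold sg
  split_ifs <;> simp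

theorem zmod2 (x : ZMod 2) : x = 0 ∨ x = 1 := by
  revert x; decide

open Classical in
theorem prod_pat {m p : ℕ} (hp : p.Prime) (hmp : m < p) (hm : Squarefree m) (φ : Pat m) :
    ∏ q ∈ m.primeFactors, (1 + sg φ q * (jacobiSym (p : ℤ) q : ℝ)) =
      if sym m p = φ then (Fintype.card (Pat m) : ℝ) else 0 := by
  have hJ : ∀ q ∈ m.primeFactors, jacobiSym (p : ℤ) q = 1 ∨ jacobiSym (p : ℤ) q = -1 := by
    intro q hq
    apply jacobiSym.eq_one_or_neg_one
    rw [Int.gcd_natCast_natCast]
    have hqm : q ≤ m := Nat.le_of_dvd (Nat.pos_of_ne_zero hm.ne_zero) (Nat.dvd_of_mem_primeFactors hq)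
    exact (Nat.coprime_primes hp (Nat.prime_of_mem_primeFactors hq)).mpr (by omega)
  split_ifs with h
  · have h1 : ∀ q ∈ m.primeFactors, (1 + sg φ q * (jacobiSym (p : ℤ) q : ℝ)) = 2 := by
      intro q hq
      have h2 : bit (p : ℤ) q = φ ⟨q, hq⟩ := congrFun h ⟨q, hq⟩
      unfold sg
      rw [dif_pos hq]
      rcases hJ q hq with h3 | h3
      · have h4 : φ ⟨q, hq⟩ = 0 := by
          rw [← h2]; unfold bit; rw [if_neg (by rw [h3]; norm_num)]
        rw [if_pos h4, h3]; norm_num
      · have h4 : φ ⟨q, hq⟩ = 1 := by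
          rw [← h2]; unfold bit; rw [if_pos h3]
        rw [if_neg (by rw [h4]; decide), h3]; norm_num
    rw [Finset.prod_congr rfl h1, Finset.prod_const]
    simp
  · obtain ⟨⟨q, hq⟩, hne⟩ : ∃ x, sym m p x ≠ φ x := by
      by_contra hcon
      push Not at hcon
      exact h (funext hcon)
    apply Finset.prod_eq_zero hq
    have hne' : bit (p : ℤ) q ≠ φ ⟨q, hq⟩ := hne
    unfold sg
    rw [dif_pos hq]
    rcases hJ q hq with h3 | h3
    · have h4 : bit (p : ℤ) q = 0 := by unfold bit; rw [if_neg (by rw [h3]; norm_num)]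
      rw [h4] at hne'
      rw [if_neg (Ne.symm hne'), h3]; norm_num
    · have h4 : bit (p : ℤ) q = 1 := by unfold bit; rw [if_pos h3]
      rw [h4] at hne'
      have h5 : φ ⟨q, hq⟩ = 0 := (zmod2 _).resolve_right (Ne.symm hne')
      rw [if_pos h5, h3]; norm_num

/-- **Row M2c** -/
theorem stmtEq : StmtEq := by
  classical
  intro m N r hm _ hmN φ
  set S := (Ioc N (2 * N)).filter (fun p => p.Prime ∧ p % 60 = r) with hS
  have hpr : ∀ p ∈ S, p.Prime ∧ m < p := by
    intro p hp
    rw [hS, mem_filter, mem_Ioc] at hp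
    exact ⟨hp.2.1, by omega⟩
  -- the right hand side
  have h1 : (Fintype.card (Pat m) : ℝ) *
      ∑ p ∈ (Ioc N (2 * N)).filter (fun p => p.Prime ∧ p % 60 = r ∧ sym m p = φ), Real.log p =
      ∑ p ∈ S, Real.log p * ∏ q ∈ m.primeFactors, (1 + sg φ q * (jacobiSym (p : ℤ) q : ℝ)) := by
    have h2 : (Ioc N (2 * N)).filter (fun p => p.Prime ∧ p % 60 = r ∧ sym m p = φ) =
        S.filter (fun p => sym m p = φ) := by
      rw [hS, Finset.filter_filter]
      apply Finset.filter_congr
      intro p _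
      tauto
    rw [h2, Finset.sum_filter, Finset.mul_sum]
    apply Finset.sum_congr rfl
    intro p hp
    rw [prod_pat (hpr p hp).1 (hpr p hp).2 hm φ]
    split_ifs
    · ring
    · simp
  have h3 : ∑ p ∈ S, Real.log p * ∏ q ∈ m.primeFactors, (1 + sg φ q * (jacobiSym (p : ℤ) q : ℝ)) =
      ∑ d ∈ m.divisors, (∏ q ∈ d.primeFactors, sg φ q) * Theta N r d := by
    have h4 : ∀ p ∈ S, Real.log p * ∏ q ∈ m.primeFactors, (1 + sg φ q * (jacobiSym (p : ℤ) q : ℝ)) =
        ∑ d ∈ m.divisors, (∏ q ∈ d.primeFactors, sg φ q) *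
          (Real.log p * (jacobiSym (p : ℤ) d : ℝ)) := by
      intro p _
      rw [prod_exp (fun q => sg φ q * (jacobiSym (p : ℤ) q : ℝ)) hm, Finset.mul_sum]
      apply Finset.sum_congr rfl
      intro d hd
      have hdm : Squarefree d := hm.squarefree_of_dvd (Nat.dvd_of_mem_divisors hd)
      rw [jac_sqf (p : ℤ) hdm, Finset.prod_mul_distrib]
      push_cast
      ring
    rw [Finset.sum_congr rfl h4, Finset.sum_comm]
    apply Finset.sum_congr rfl
    intro d _
    rw [Theta, Finset.mul_sum]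
  rw [h1, h3, ← Finset.add_sum_erase _ _ (Nat.one_mem_divisors.mpr hm.ne_zero)]
  have h5 : (∏ q ∈ (1 : ℕ).primeFactors, sg φ q) * Theta N r 1 = Theta N r 1 := by
    rw [Nat.primeFactors_one, Finset.prod_empty, one_mul]
  rw [h5, sub_eq_add_neg, ← Finset.sum_neg_distrib]
  have h6 : ∑ c ∈ m.divisors.erase 1, -|Theta N r c| ≤
      ∑ c ∈ m.divisors.erase 1, (∏ q ∈ c.primeFactors, sg φ q) * Theta N r c := by
    apply Finset.sum_le_sum
    intro c _
    have h7 : |(∏ q ∈ c.primeFactors, sg φ q) * Theta N r c| = |Theta N r c| := by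
      rw [abs_mul, Finset.abs_prod, Finset.prod_congr rfl fun q _ => sg_abs φ q,
        Finset.prod_const_one, one_mul]
    rw [← h7]
    exact neg_abs_le _
  linarith

end Vale.Agent.P017.R2.H285
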