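import Mathlib

/-!
# P017, M7e, lemma U: uniqueness of the factorisation `d = m * prod p * p'`
-/

open Finset

namespace Vale.Agent.P017.R2.H285

/-- the prime `p` lies in the `i`-th window -/
def Win (T i p : ℕ) : Prop := p.Prime ∧ 2 ^ ((i + 1) * T) < p ∧ p ≤ 2 ^ ((i + 2) * T)

theorem Win.unique_index {T i j p : ℕ} (h1 : Win T i p) (h2 : Win T j p) : i = j := by
  rcases lt_trichotomy i j with h | h | h
  · exfalso
    have : 2 ^ ((i + 2) * T) ≤ 2 ^ ((j + 1) * T) :=
      Nat.pow_le_pow_right (by norm_num) (Nat.mul_le_mul_right T (by omega))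
    have := h1.2.2
    have := h2.2.1
    omega
  · exact h
  · exfalso
    have : 2 ^ ((j + 2) * T) ≤ 2 ^ ((i + 1) * T) :=
      Nat.pow_le_pow_right (by norm_num) (Nat.mul_le_mul_right T (by omega))
    have := h2.2.2
    have := h1.2.1
    omega

theorem Win.gt {T i p : ℕ} (h : Win T i p) : 2 ^ T < p := by
  refine lt_of_le_of_lt (Nat.pow_le_pow_right (by norm_num) ?_) h.2.1
  nlinarith [Nat.zero_le (i * T)]

theorem Win.le_top {T s p : ℕ} {i : Fin s} (h : Win T i p) : p ≤ 2 ^ ((s + 2) * T) := by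
  refine h.2.2.trans (Nat.pow_le_pow_right (by norm_num) (Nat.mul_le_mul_right T ?_))
  have := i.2
  omega

/-- distinct indices, distinct primes -/
theorem win_injective {T s : ℕ} {p : Fin s → ℕ} (hp : ∀ i : Fin s, Win T i (p i)) :
    Function.Injective p := by
  intro i j hij
  have h1 := hp i
  rw [hij] at h1
  exact Fin.ext (h1.unique_index (hp j))

theorem not_dvd_small {T m p : ℕ} (hm : m < 2 ^ T) (hm0 : 0 < m) (hp : 2 ^ T < p) : ¬ p ∣ m := by
  intro h
  have := Nat.le_of_dvd hm0 h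
  omega

theorem two_pow_le_top {T s : ℕ} : 2 ^ T ≤ 2 ^ ((s + 2) * T) :=
  Nat.pow_le_pow_right (by norm_num) (by nlinarith [Nat.zero_le (s * T)])

/-- **Lemma U.** `d = m * prod p * p'` determines `m`, `p` and `p'`. -/
theorem uniq {T s : ℕ} {m m' : ℕ} (hm0' : 0 < m')
    (hm' : m' < 2 ^ T) {p q : Fin s → ℕ} (hp : ∀ i : Fin s, Win T i (p i)) (hq : ∀ i : Fin s, Win T i (q i))
    {p' q' : ℕ} (hp' : p'.Prime) (hq' : q'.Prime) (hpT : 2 ^ ((s + 2) * T) < p')
    (hqT : 2 ^ ((s + 2) * T) < q')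
    (h : m * (∏ i, p i) * p' = m' * (∏ i, q i) * q') : m = m' ∧ p = q ∧ p' = q' := by
  have htop := two_pow_le_top (T := T) (s := s)
  have e1 : p' = q' := by
    have hd : p' ∣ m' * (∏ i, q i) * q' := h ▸ Dvd.intro_left _ rfl
    rcases (Nat.Prime.dvd_mul hp').1 hd with hd | hd
    · exfalso
      rcases (Nat.Prime.dvd_mul hp').1 hd with hd | hd
      · exact not_dvd_small hm' hm0' (by omega) hd
      · obtain ⟨i, -, hi⟩ := (Prime.dvd_finsetProd_iff hp'.prime _).1 hd
        have h1 := (Nat.prime_dvd_prime_iff_eq hp' (hq i).1).1 hi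
        have h2 := (hq i).le_top
        omega
    · exact (Nat.prime_dvd_prime_iff_eq hp' hq').1 hd
  subst e1
  have h2 : m * (∏ i, p i) = m' * (∏ i, q i) := Nat.eq_of_mul_eq_mul_right hp'.pos h
  have e2 : p = q := by
    funext i
    have hd : p i ∣ m' * ∏ i, q i := by
      rw [← h2]
      exact Dvd.dvd.mul_left (dvd_prod_of_mem p (mem_univ i)) m
    rcases (Nat.Prime.dvd_mul (hp i).1).1 hd with hd | hd
    · exact absurd hd (not_dvd_small hm' hm0' (hp i).gt)
    · obtain ⟨j, -, hj⟩ := (Prime.dvd_finsetProd_iff (hp i).1.prime _).1 hd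
      have h3 := (Nat.prime_dvd_prime_iff_eq (hp i).1 (hq j).1).1 hj
      have h4 := hp i
      rw [h3] at h4
      rw [h3, Fin.ext (h4.unique_index (hq j))]
  subst e2
  refine ⟨Nat.eq_of_mul_eq_mul_right ?_ h2, rfl, rfl⟩
  exact prod_pos fun i _ => (hp i).1.pos

/-- primes of the windows do not divide `m` -/
theorem win_not_dvd {T i m p : ℕ} (hm0 : 0 < m) (hm : m < 2 ^ T) (hp : Win T i p) : ¬ p ∣ m :=
  not_dvd_small hm hm0 hp.gt

/-- the last prime does not divide `m` -/
theorem top_not_dvd {T s m p' : ℕ} (hm0 : 0 < m) (hm : m < 2 ^ T)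
    (hpT : 2 ^ ((s + 2) * T) < p') : ¬ p' ∣ m :=
  not_dvd_small hm hm0 (lt_of_le_of_lt two_pow_le_top hpT)

/-- the last prime is different from the primes of the windows -/
theorem win_ne_top {T s : ℕ} {p : Fin s → ℕ} (hp : ∀ i : Fin s, Win T i (p i)) {p' : ℕ}
    (hpT : 2 ^ ((s + 2) * T) < p') (i : Fin s) : p i ≠ p' := by
  have := (hp i).le_top
  omega

/-- **Lemma U, second part.** `m * prod p * p'` is squarefree. -/
theorem squarefree_d {T s : ℕ} {m : ℕ} (hsq : Squarefree m) (hm : m < 2 ^ T)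
    {p : Fin s → ℕ} (hp : ∀ i : Fin s, Win T i (p i)) {p' : ℕ} (hp' : p'.Prime)
    (hpT : 2 ^ ((s + 2) * T) < p') : Squarefree (m * (∏ i, p i) * p') := by
  have hm0 : 0 < m := Nat.pos_of_ne_zero hsq.ne_zero
  have hinj := win_injective hp
  have hprod : Squarefree (∏ i, p i) := by
    have key : ∀ S : Finset (Fin s), Squarefree (∏ i ∈ S, p i) := by
      intro S
      induction S using Finset.induction_on with
      | empty => simp
      | insert a S ha ih =>
        rw [prod_insert ha, Nat.squarefree_mul_iff]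
        refine ⟨?_, (hp a).1.prime.squarefree, ih⟩
        refine Nat.Coprime.prod_right fun j hj => ?_
        refine (Nat.coprime_primes (hp a).1 (hp j).1).2 fun e => ?_
        exact ha (hinj e ▸ hj)
    exact key univ
  rw [Nat.squarefree_mul_iff, Nat.squarefree_mul_iff]
  refine ⟨?_, ⟨?_, hsq, hprod⟩, hp'.prime.squarefree⟩
  · refine Nat.Coprime.mul_left ?_ ?_
    · exact ((Nat.Prime.coprime_iff_not_dvd hp').2 (top_not_dvd hm0 hm hpT)).symm
    · refine Nat.Coprime.prod_left fun i _ => ?_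
      exact (Nat.coprime_primes (hp i).1 hp').2 (win_ne_top hp hpT i)
  · refine Nat.Coprime.prod_right fun i _ => ?_
    exact ((Nat.Prime.coprime_iff_not_dvd (hp i).1).2 (win_not_dvd hm0 hm (hp i))).symm

end Vale.Agent.P017.R2.H285
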